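import Vale.Agent.P129BQ.Defs

/-!
# Internally countable sets, finite induction principles
-/

set_option linter.unusedSectionVars false

namespace Vale.Agent.P129B

universe v

variable {N : Type v} [ZM N]

theorem exists_unpair : ∃ s : NN N → NN N × NN N, Intl N s ∧ Function.Surjective s := by
  classical
  obtain ⟨s, hs, h0, h1⟩ := exists_intl_rec (N := N) ((0 : NN N), (0 : NN N))
    (s := fun _ p => if p.1 = 0 then (p.2 + 1, 0) else (p.1 - 1, p.2 + 1)) (by fun_prop)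
  have h2 : ∀ i d : NN N, (∃ n, s n = (d + i, 0)) → ∃ n, s n = (d, i) := by
    intro i
    refine NN.ind (P := fun i => ∀ d : NN N, (∃ n, s n = (d + i, 0)) → ∃ n, s n = (d, i))
      (by fun_prop) (fun d h => by simpa using h) (fun i ih d h => ?_) i
    obtain ⟨n, hn⟩ := ih (d + 1) (by rwa [add_assoc, add_comm 1 i])
    refine ⟨n + 1, ?_⟩
    rw [h1, hn, if_neg (NN.add_one_ne_zero d), add_tsub_cancel_right]
  have h3 : ∀ d : NN N, ∃ n, s n = (d, 0) := by
    intro d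
    refine NN.ind (P := fun d => ∃ n, s n = (d, 0)) (by fun_prop) ⟨0, h0⟩ (fun d ih => ?_) d
    obtain ⟨n, hn⟩ := h2 d 0 (by rwa [zero_add])
    exact ⟨n + 1, by rw [h1, hn, if_pos rfl]⟩
  exact ⟨s, hs, fun p => h2 p.2 p.1 (h3 _)⟩

variable {K : Type*} [Coded N K] [Tot N K]

theorem Ctb.mono {A B : Set K} (h : Ctb N B) (H : A ⊆ B) : Ctb N A := by
  obtain ⟨e, h1, h2⟩ := h
  exact ⟨e, h1, fun a ha => h2 a (H ha)⟩

theorem ctb_single (a : K) : Ctb N ({a} : Set K) :=
  ⟨fun _ => a, inferInstance, fun _ hb => ⟨0, hb.symm⟩⟩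

theorem ctb_empty [h : Nonempty K] : Ctb N (∅ : Set K) :=
  h.elim fun a => (ctb_single a).mono (Set.empty_subset _)

theorem ctb_iUnion {D : NN N → Set K} (hD : DefF N D) (h : ∀ n, Ctb N (D n)) :
    Ctb N (⋃ n, D n) := by
  obtain ⟨s, hs, hs'⟩ := exists_unpair (N := N)
  obtain ⟨e, he, he'⟩ := exists_intl_choice (N := N)
    (R := fun (n : NN N) (e : NN N → K) => ∀ a ∈ D n, ∃ m, e m = a) (by fun_prop) h
  have h2 := DefF.ofIntl2 (N := N) e
  refine ⟨fun n => e (s n).1 (s n).2, DefF.toIntl (h2.comp (DefF.ofIntl s)), fun a ha => ?_⟩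
  obtain ⟨n, hn⟩ := Set.mem_iUnion.1 ha
  obtain ⟨m, hm⟩ := he' n a hn
  obtain ⟨l, hl⟩ := hs' (n, m)
  exact ⟨l, by simp only [hl, hm]⟩

theorem Ctb.union {A B : Set K} [Intl N A] [Intl N B] (hA : Ctb N A) (hB : Ctb N B) :
    Ctb N (A ∪ B) := by
  classical
  refine (ctb_iUnion (D := fun n : NN N => if n = 0 then A else B) (by fun_prop)
    fun n => ?_).mono ?_
  · split_ifs
    exacts [hA, hB]
  · rintro a (ha | ha)
    · exact Set.mem_iUnion.2 ⟨0, by simpa using ha⟩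
    · exact Set.mem_iUnion.2 ⟨1, by simpa using ha⟩

/-- A common bound for finitely many monotone requirements. -/
theorem exists_common {P : NN N → NN N → Prop} (hP : DefF N (fun p : NN N × NN N => P p.1 p.2))
    (mono : ∀ t i j, i ≤ j → P t i → P t j) (n : NN N) (h : ∀ t, t < n → ∃ j, P t j) :
    ∃ j, ∀ t, t < n → P t j := by
  have hP' : ∀ {α : Type _} [Coded N α] {f g : α → NN N}, DefF N f → DefF N g →
      DefF N (fun a => P (f a) (g a)) := fun hf hg => hP.comp2 hf hg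
  revert h
  refine NN.ind (P := fun n => (∀ t, t < n → ∃ j, P t j) → ∃ j, ∀ t, t < n → P t j)
    ?_ (fun _ => ⟨0, fun t ht => absurd ht (NN.not_lt_zero' t)⟩) (fun n ih h => ?_) n
  · refine DefF.imp (DefF.allT (DefF.imp (by fun_prop) (DefF.exT (hP' ?_ ?_))))
      (DefF.exT (DefF.allT (DefF.imp (by fun_prop) (hP' ?_ ?_)))) <;> fun_prop
  · obtain ⟨j, hj⟩ := ih fun t ht => h t (ht.trans (NN.lt_add_one n))
    obtain ⟨i, hi⟩ := h n (NN.lt_add_one n)
    refine ⟨max i j, fun t ht => ?_⟩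
    rcases NN.lt_add_one_cases ht with h1 | rfl
    exacts [mono _ _ _ (le_max_right _ _) (hj t h1), mono _ _ _ (le_max_left _ _) hi]

/-- Finitely many open dense sets have a dense intersection. -/
theorem dense_fin {P : Type*} [Coded N P] [Tot N P] [Preorder P] [DefLE N P]
    {D : NN N → P → Prop} (hD : DefF N (fun p : NN N × P => D p.1 p.2))
    (mono : ∀ t p q, q ≤ p → D t p → D t q) (h : ∀ t q, ∃ p, p ≤ q ∧ D t p) (n : NN N) (q : P) :
    ∃ p, p ≤ q ∧ ∀ t, t < n → D t p := by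
  refine NN.ind (P := fun n => ∃ p, p ≤ q ∧ ∀ t, t < n → D t p) ?_
    ⟨q, le_rfl, fun t ht => absurd ht (NN.not_lt_zero' t)⟩ (fun n ih => ?_) n
  · exact DefF.exT (DefF.and (by fun_prop) (DefF.allT (DefF.imp (by fun_prop)
      (hD.comp2 (by fun_prop) (by fun_prop)))))
  · obtain ⟨p, h1, h2⟩ := ih
    obtain ⟨r, h3, h4⟩ := h n p
    refine ⟨r, h3.trans h1, fun t ht => ?_⟩
    rcases NN.lt_add_one_cases ht with h5 | rfl
    exacts [mono _ _ _ h3 (h2 t h5), h4]

end Vale.Agent.P129B
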