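import Vale.Agent.P129BQ.Avoid

/-!
# Random forcing inside a model: the interface `RFo` holds
-/

set_option linter.unusedSectionVars false

namespace Vale.Agent.P129B

universe v

variable {N : Type v} [ZM N] {K Ω R : Type*} [Coded N K] [Tot N K] [Coded N Ω] [Tot N Ω]
  [Field R] [LinearOrder R] [IsStrictOrderedRing R] [Coded N R] [RF N R] {w : NN N → NN N}

namespace MS

variable {S : MS N K Ω R w}

theorem cl_cd (a : K) (k M : NN N) (P : NN N → Prop) : S.Cl fun _ => {ω | P (S.cd ω a k M)} :=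
  cl_const (Δ := {a}) (ctb_single a) fun b hb l L y ω => by
    simp only [Set.mem_ofPred_eq, S.cd_upd ω a k M b l L y hb]

theorem cov_cd (a : K) (k M t : NN N) :
    Cov (fun p : S.PP => ∃ x m, p.s m ⊆ {ω | S.cd ω a k M = x}) fun _ => {ω | S.cd ω a k M < t} := by
  refine NN.ind (P := fun t => Cov (fun p : S.PP => ∃ x m, p.s m ⊆ {ω | S.cd ω a k M = x})
    fun _ => {ω | S.cd ω a k M < t}) (defF_cov1 (by fun_prop) (by fun_prop)) ?_ (fun t ih => ?_) t
  · have e : {ω | S.cd ω a k M < 0} = ∅ :=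
      Set.eq_empty_of_forall_notMem fun ω h => NN.not_lt_zero' _ h
    rw [e]
    exact cov_empty _
  · have e : {ω | S.cd ω a k M < t + 1} = {ω | S.cd ω a k M < t} ∪ {ω | S.cd ω a k M = t} :=
      Set.ext fun ω => NN.lt_add_one_iff.trans le_iff_lt_or_eq
    rw [e]
    have i1 : Intl N fun _ : NN N => {ω | S.cd ω a k M < t} := DefF.toIntl (by fun_prop)
    have i2 : Intl N fun _ : NN N => {ω | S.cd ω a k M = t} := DefF.toIntl (by fun_prop)
    exact Cov.union (cl_cd a k M (· < t)) (cl_cd a k M (· = t)) ih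
      fun q hq => ⟨q, le_rfl, t, hq 0⟩

variable (S) in
/-- Random forcing has the properties that are used. -/
theorem exists_rfo [Nonempty K] : ∃ ev, RFo N K S.PP w ev := by
  refine ⟨fun a k M x p => ∃ m, p.s m ⊆ {ω | S.cd ω a k M = x}, by fun_prop,
    fun a k M x p q hq ⟨m, hm⟩ => (hq m).imp fun l hl => hl.trans hm,
    fun a k M x p ⟨m, hm⟩ => ?_, fun a k M x y p ⟨m, hm⟩ ⟨l, hl⟩ => ?_, fun a k M q => ?_,
    avoid⟩
  · obtain ⟨ω, hω⟩ := p.nonempty m
    exact (hm hω : _ = x) ▸ S.cd_le ω a k M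
  · obtain ⟨ω, hω⟩ := p.nonempty (max m l)
    exact (hm (p.cl.1 _ _ (le_max_left _ _) hω)).symm.trans
      (hl (p.cl.1 _ _ (le_max_right _ _) hω))
  · exact cov_cd a k M (M + 1) q
      (Le.of_sub fun _ ω _ => NN.lt_add_one_iff.2 (S.cd_le ω a k M))

end MS

end Vale.Agent.P129B
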