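import Vale.Agent.P129B.Choice
import Vale.Agent.P129BO.St

/-!
# Random forcing inside a model: the interfaces
-/

set_option linter.unusedSectionVars false

namespace Vale.Agent.P129B

universe v w

variable {N : Type v} [ZM N]

/-- `B` has `c` members that are at most `M`. -/
def Many (B : Set (NN N)) (M c : NN N) : Prop :=
  ∃ f : NN N → NN N, Intl N f ∧ (∀ i j, i < j → j < c → f i < f j) ∧ ∀ i, i < c → f i ≤ M ∧ f i ∈ B

variable (N) in
/-- internally countable sets -/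
def Ctb {K : Type*} [Coded N K] (Δ : Set K) : Prop :=
  ∃ e : NN N → K, Intl N e ∧ ∀ a ∈ Δ, ∃ n, e n = a

variable (N) in
/-- free sequences for maps from sets to countable sets -/
def HasFree (K : Type*) [Coded N K] [Tot N K] : Prop :=
  ∀ F : Set K → NN N → NN N → K, DefF N (fun p : Set K × NN N × NN N => F p.1 p.2.1 p.2.2) →
    ∃ g : NN N → K, Intl N g ∧ ∀ T : Set (NN N), Intl N T → (∃ b, ∀ i ∈ T, i < b) →
      ∀ j, j ∉ T → ∀ m n, g j ≠ F (g '' T) m n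

variable (N) in
/-- A finitely additive probability on the internal subsets of `Ω`, with independent uniform
coordinates `cd ω a k M ≤ M`. -/
structure MS (K Ω R : Type*) [Coded N K] [Tot N K] [Coded N Ω] [Tot N Ω] [Field R] [LinearOrder R]
    [Coded N R] (w : NN N → NN N) where
  μ : Set Ω → R
  cd : Ω → K → NN N → NN N → NN N
  upd : Ω → K → NN N → NN N → NN N → Ω
  h : NN N → R
  dμ : DefF N μ
  dcd : DefF N (fun p : Ω × K × NN N × NN N => cd p.1 p.2.1 p.2.2.1 p.2.2.2)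
  dupd : DefF N (fun p : Ω × K × NN N × NN N × NN N =>
    upd p.1 p.2.1 p.2.2.1 p.2.2.2.1 p.2.2.2.2)
  dh : DefF N h
  dw : DefF N w
  lub : ∀ S : Set R, Intl N S → S.Nonempty → BddAbove S → ∃ c, IsLUB S c
  nonneg : ∀ A, Intl N A → 0 ≤ μ A
  empty : μ ∅ = 0
  univ : μ Set.univ = 1
  union : ∀ A B, Intl N A → Intl N B → μ (A ∪ B) + μ (A ∩ B) = μ A + μ B
  cd_le : ∀ ω a k M, cd ω a k M ≤ M
  cd_upd : ∀ ω a k M b l L x, b ≠ a → cd (upd ω b l L x) a k M = cd ω a k M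
  h_pos : ∀ k, 0 < h k
  h_lt : ∀ k, h (k + 1) < h k
  h_lim : ∀ ε, 0 < ε → ∃ k, h k < ε
  ind : ∀ (a : K) (k M : NN N) (C : NN N → Set Ω) (U : Set Ω), Intl N C → Intl N U →
    (∀ x y ω, upd ω a k M y ∈ C x ↔ ω ∈ C x) →
    (∀ ω c, Many {x | ω ∈ C x} M c → c * w k ≤ M + 1) → (∀ x, x ≤ M → C x ⊆ U) →
    μ {ω | ω ∈ C (cd ω a k M)} ≤ (h k - h (k + 1)) * μ U

variable (N) in
/-- What is used of random forcing in the ground model; `ev a k M x p`: the condition `p` gives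
the value `x` to the coordinate `(a, k, M)`. -/
structure RFo (K P : Type*) [Coded N K] [Tot N K] [Coded N P] [Tot N P] [Preorder P]
    (w : NN N → NN N) (ev : K → NN N → NN N → NN N → P → Prop) : Prop where
  dev : DefF N (fun t : (K × NN N × NN N × NN N) × P =>
    ev t.1.1 t.1.2.1 t.1.2.2.1 t.1.2.2.2 t.2)
  mono : ∀ a k M x p q, q ≤ p → ev a k M x p → ev a k M x q
  le : ∀ a k M x p, ev a k M x p → x ≤ M
  uniq : ∀ a k M x y p, ev a k M x p → ev a k M y p → x = y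
  dense : ∀ a k M q, ∃ p, p ≤ q ∧ ∃ x, ev a k M x p
  avoid : ∀ ψ : NN N → NN N → NN N → P → Prop,
    DefF N (fun t : (NN N × NN N × NN N) × P => ψ t.1.1 t.1.2.1 t.1.2.2 t.2) →
    (∀ k M x p q, q ≤ p → ψ k M x p → ψ k M x q) →
    (∀ k M L x y p, ψ k M x p → ψ k L y p → M = L) →
    (∀ k M c p, Many {x | ψ k M x p} M c → c * w k ≤ M + 1) →
    ∃ Δ : Set K, Intl N Δ ∧ Ctb N Δ ∧ ∀ a, a ∉ Δ → ∀ q, ∃ p, p ≤ q ∧ ∃ k₀, ∀ k, k₀ ≤ k →
      ∀ M x r, r ≤ p → ev a k M x r → ¬ ψ k M x r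

/-- What is used of a generic extension `M` of `N` (beside the properties of `j`). -/
structure GExt {M : Type w} [ZM M] (j : N → M) {P : Type*} [Coded N P] [Tot N P] [Preorder P]
    (G : Set P) : Prop where
  up : ∀ p ∈ G, ∀ q, p ≤ q → q ∈ G
  dir : ∀ p ∈ G, ∀ q ∈ G, ∃ r ∈ G, r ≤ p ∧ r ≤ q
  gen : ∀ D : P → Prop, DefF N D → (∀ q, ∃ p, p ≤ q ∧ D p) → ∃ p ∈ G, D p
  name : ∀ s : M, ∃ φ : N → P → Prop, DefF N (fun t : N × P => φ t.1 t.2) ∧
    (∀ x p q, q ≤ p → φ x p → φ x q) ∧ ∀ x, j x ∈ s ↔ ∃ p ∈ G, φ x p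
  comp : ∀ (A : N) (φ : N → P → Prop), DefF N (fun t : N × P => φ t.1 t.2) →
    ∃ s : M, ∀ y, y ∈ s ↔ ∃ x, x ∈ A ∧ j x = y ∧ ∃ p ∈ G, φ x p

variable {α : Type*} [Coded N α]

@[fun_prop] theorem DefF.many {B : α → Set (NN N)} {M c : α → NN N} (hB : DefF N B)
    (hM : DefF N M) (hc : DefF N c) : DefF N (fun a => Many (B a) (M a) (c a)) := by
  unfold Many
  fun_prop

@[fun_prop] theorem DefF.ctb {K : Type*} [Coded N K] [Tot N K] {D : α → Set K} (hD : DefF N D) :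
    DefF N (fun a => Ctb N (D a)) := by
  unfold Ctb
  fun_prop

theorem Many.mono {B C : Set (NN N)} {M c : NN N} (h : Many B M c)
    (H : ∀ x, x ≤ M → x ∈ B → x ∈ C) : Many C M c := by
  obtain ⟨f, h1, h2, h3⟩ := h
  exact ⟨f, h1, h2, fun i hi => ⟨(h3 i hi).1, H _ (h3 i hi).1 (h3 i hi).2⟩⟩

end Vale.Agent.P129B
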