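import Vale.Agent.P129BQ.Thin

/-!
# Random forcing inside a model: a new random point avoids the names of thin sets
-/

set_option linter.unusedSectionVars false

namespace Vale.Agent.P129B

universe v

variable {N : Type v} [ZM N] {K Ω R : Type*} [Coded N K] [Tot N K] [Coded N Ω] [Tot N Ω]
  [Field R] [LinearOrder R] [IsStrictOrderedRing R] [Coded N R] [RF N R] {w : NN N → NN N}

namespace MS

variable {S : MS N K Ω R w}

/-- A small cover of the event that the new coordinate at level `k` is caught. -/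
theorem exists_cover {φ : (NN N × NN N) × S.PP → Prop} (hφ : DefF N φ)
    {u : (NN N × NN N) × NN N × NN N → Set Ω} (hu : DefF N u) {Δ : Set K} [Intl N Δ]
    (hΔ : Ctb N Δ) (h0 : ∀ t i j n, i ≤ j → u (t, i, n) ⊆ u (t, j, n))
    (h1 : ∀ t i m n, m ≤ n → u (t, i, n) ⊆ u (t, i, m)) (h2 : ∀ t, S.Inv Δ (u t))
    (h3 : ∀ t i, Cov (fun p => φ (t, p)) fun j => u (t, i, j))
    (mono : ∀ t p q, q ≤ p → φ (t, p) → φ (t, q))
    (un : ∀ M L x y p, φ ((M, x), p) → φ ((L, y), p) → M = L) (k : NN N)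
    (few : ∀ M c p, Many {x | φ ((M, x), p)} M c → c * w k ≤ M + 1) {a : K} (ha : a ∉ Δ) :
    ∃ W : NN N → Set Ω, Intl N W ∧ (∀ m n, m ≤ n → W m ⊆ W n) ∧
      (∀ n, S.μ (W n) ≤ 3 * (S.h k - S.h (k + 1))) ∧ (∀ n, S.Inv (Δ ∪ {a}) (W n)) ∧
      ∀ M i, ∃ n j, ∀ ω, ω ∈ u ((M, S.cd ω a k M), i, j) → ω ∈ W n := by
  have hd : 0 < S.h k - S.h (k + 1) := sub_pos.2 (S.h_lt k)
  have hc : 0 < (S.h k - S.h (k + 1)) / S.h 0 := div_pos hd (S.h_pos 0)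
  have hE : DefF N fun t : NN N × NN N × NN N => {ω | ∃ M, M < t.1 ∧ ω ∈ {ω | ∃ x, x < t.1 ∧
      ω ∈ u ((M, x), t.1, t.2.1) \ u ((M, x), t.1, t.2.2)}} := by fun_prop
  have hT : ∀ n, S.Th fun i j => {ω | ∃ M, M < n ∧ ω ∈ {ω | ∃ x, x < n ∧
      ω ∈ u ((M, x), n, i) \ u ((M, x), n, j)}} := fun n =>
    th_union (A := fun M i j => {ω | ∃ x, x < n ∧ ω ∈ u ((M, x), n, i) \ u ((M, x), n, j)})
      (by fun_prop) (fun M => th_union (A := fun x i j => u ((M, x), n, i) \ u ((M, x), n, j))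
        (by fun_prop) (fun x => by
          have : Intl N fun j => u ((M, x), n, j) := DefF.toIntl (by fun_prop)
          exact Cl.th (u := fun j => u ((M, x), n, j))
            ⟨h1 _ _, Δ, inferInstance, hΔ, fun _ => h2 _⟩) n) n
  obtain ⟨J, hJ, hJ'⟩ := exists_intl_choiceT (N := N) (R := fun n i : NN N => ∀ j,
      S.μ {ω | ∃ M, M < n ∧ ω ∈ {ω | ∃ x, x < n ∧ ω ∈ u ((M, x), n, i) \ u ((M, x), n, j)}} ≤
        (S.h k - S.h (k + 1)) / S.h 0 * (S.h n - S.h (n + 1)))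
    (DefF.allT (DefF.le (S.defF_μ (hE.comp
      (g := fun p : (NN N × NN N) × NN N => (p.1.1, p.1.2, p.2)) (by fun_prop))) (by fun_prop)))
    fun n => (hT n _ (mul_pos hc (sub_pos.2 (S.h_lt n)))).imp fun i hi => hi i le_rfl
  have hW : DefF N fun n : NN N =>
      {ω | ∃ l, l < n ∧ ∃ M, M < l ∧ ω ∈ u ((M, S.cd ω a k M), l, J l)} := by fun_prop
  refine ⟨_, hW.toIntl, fun m n hmn ω ⟨l, a1, a2⟩ => ⟨l, a1.trans_le hmn, a2⟩, fun n => ?_,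
    fun n b hb l L y ω => ?_, fun M i => ⟨max (M + 1) i + 1, J (max (M + 1) i), fun ω hω =>
      ⟨_, NN.lt_add_one _, M, (NN.lt_add_one M).trans_le (le_max_left _ _),
        h0 _ _ _ _ (le_max_right _ _) hω⟩⟩⟩
  · have hv : DefF N fun t : NN N × NN N × NN N => u ((t.1, t.2.1), n, t.2.2) := by fun_prop
    obtain ⟨j, hj⟩ := bg_small hφ hv hΔ (fun M x => h1 (M, x) n) (fun _ => h2 _)
      (fun M x => h3 (M, x) n) mono un few n hd
    have h4 := mass (S := S) hv a k n j fun M y ω t => h2 _ a ha k M y ω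
    have hA : DefF N fun l : NN N => {ω | ∃ M, M < l ∧ ω ∈ {ω | ∃ x, x < l ∧
        ω ∈ u ((M, x), l, J l) \ u ((M, x), l, j)}} :=
      hE.comp (g := fun l : NN N => (l, J l, j)) (by fun_prop)
    have h5 := S.μ_union_le hA 0 n (fun l _ => hJ' l j) hc.le
    rw [div_mul_cancel₀ _ (S.h_pos 0).ne'] at h5
    have i1 := hW.intl n
    have i2 : Intl N {ω | ∃ M, M < n ∧ ω ∈ u ((M, S.cd ω a k M), n, j)} :=
      intl_setOfT (by fun_prop)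
    have i3 : Intl N {ω | ∃ l, 0 ≤ l ∧ l < n ∧ ω ∈ {ω | ∃ M, M < l ∧ ω ∈ {ω | ∃ x, x < l ∧
        ω ∈ u ((M, x), l, J l) \ u ((M, x), l, j)}}} := intl_setOfT (by fun_prop)
    have h6 : S.μ {ω | ∃ l, l < n ∧ ∃ M, M < l ∧ ω ∈ u ((M, S.cd ω a k M), l, J l)} ≤
        S.μ {ω | ∃ M, M < n ∧ ω ∈ u ((M, S.cd ω a k M), n, j)} +
        S.μ {ω | ∃ l, 0 ≤ l ∧ l < n ∧ ω ∈ {ω | ∃ M, M < l ∧ ω ∈ {ω | ∃ x, x < l ∧
          ω ∈ u ((M, x), l, J l) \ u ((M, x), l, j)}}} := by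
      refine S.μ_le_add fun ω ⟨l, a1, M, a2, a3⟩ => ?_
      by_cases h : ω ∈ u ((M, S.cd ω a k M), l, j)
      · exact Or.inl ⟨M, a2.trans a1, h0 _ _ _ _ a1.le h⟩
      · exact Or.inr ⟨l, NN.zero_le' l, a1, M, a2, _, (S.cd_le ω a k M).trans_lt a2, a3, h⟩
    beta_reduce at h4 h5 ⊢
    linarith
  · have hb1 : b ∉ Δ := fun h => hb (Or.inl h)
    have hb2 : b ≠ a := fun h => hb (Or.inr h)
    simp only [Set.mem_ofPred_eq, fun M => S.cd_upd ω a k M b l L y hb2,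
      fun t => h2 t b hb1 l L y ω]

theorem avoid [Nonempty K] (ψ : NN N → NN N → NN N → S.PP → Prop)
    (hψ : DefF N (fun t : (NN N × NN N × NN N) × S.PP => ψ t.1.1 t.1.2.1 t.1.2.2 t.2))
    (mono : ∀ k M x p q, q ≤ p → ψ k M x p → ψ k M x q)
    (un : ∀ k M L x y p, ψ k M x p → ψ k L y p → M = L)
    (few : ∀ k M c p, Many {x | ψ k M x p} M c → c * w k ≤ M + 1) :
    ∃ Δ : Set K, Intl N Δ ∧ Ctb N Δ ∧ ∀ a, a ∉ Δ → ∀ q : S.PP, ∃ p, p ≤ q ∧ ∃ k₀, ∀ k, k₀ ≤ k →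
      ∀ M x r, r ≤ p → (∃ m, r.s m ⊆ {ω | S.cd ω a k M = x}) → ¬ ψ k M x r := by
  obtain ⟨U, hU, hU'⟩ := exists_intl_choice (N := N)
    (R := fun (t : NN N × NN N × NN N) (u : NN N → NN N → Set Ω) =>
      BV (ψ t.1 t.2.1 t.2.2) u) (defF_bv (ψ := fun t : NN N × NN N × NN N => ψ t.1 t.2.1 t.2.2) hψ)
    fun t => exists_bv (hψ.comp (g := fun p => (t, p)) (by fun_prop)) (mono _ _ _)
  have hU2 : DefF N fun p : ((NN N × NN N × NN N) × NN N) × NN N => U p.1.1 p.1.2 p.2 :=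
    ((DefF.ofIntl2 U).comp DefF.id.fst).ap DefF.id.snd
  obtain ⟨s1, i1, hs1⟩ := exists_surj_prod (N := N)
    (exists_surj_prod (N := N) (exists_unpair (N := N)))
  obtain ⟨Δ, hΔ, hΔ1, hΔ2⟩ := exists_supp (S := S) hs1
    (u := fun t n => U (t.1.1.1, t.1.1.2, t.1.2) t.2 n)
    (hU2.comp (g := fun p : (((NN N × NN N) × NN N) × NN N) × NN N =>
      (((p.1.1.1.1, p.1.1.1.2, p.1.1.2), p.1.2), p.2)) (by fun_prop))
    fun t => ((hU' _).1 _).1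
  have hΔ3 : ∀ k M x i n, S.Inv Δ (U (k, M, x) i n) := fun k M x i n => hΔ2 (((k, M), x), i) n
  refine ⟨Δ, hΔ, hΔ1, fun a ha q => ?_⟩
  obtain ⟨W, hW, hW'⟩ := exists_intl_choice (N := N)
    (R := fun (k : NN N) (W : NN N → Set Ω) => (∀ m n, m ≤ n → W m ⊆ W n) ∧
      (∀ n, S.μ (W n) ≤ 3 * (S.h k - S.h (k + 1))) ∧ (∀ n, S.Inv (Δ ∪ {a}) (W n)) ∧
      ∀ M i, ∃ n j, ∀ ω, ω ∈ U (k, M, S.cd ω a k M) i j → ω ∈ W n)
    (by
      refine DefF.and (by fun_prop) (DefF.and (by fun_prop) (DefF.and (by fun_prop)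
        (DefF.allT (DefF.allT (DefF.exT (DefF.exT (DefF.allT (DefF.imp (DefF.mem (by fun_prop)
          (hU2.comp2 (F := fun (p : (NN N × NN N × NN N) × NN N) j => U p.1 p.2 j)
            (f := fun p : ((((((NN N × (NN N → Set Ω)) × NN N) × NN N) × NN N) × NN N) × Ω) =>
              ((p.1.1.1.1.1.1, p.1.1.1.1.2, S.cd p.2 a p.1.1.1.1.1.1 p.1.1.1.1.2), p.1.1.1.2))
            ?_ ?_)) ?_)))))))) <;> fun_prop)
    fun k => exists_cover (φ := fun t => ψ k t.1.1 t.1.2 t.2)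
      (hψ.comp (g := fun t : (NN N × NN N) × S.PP => ((k, t.1.1, t.1.2), t.2)) (by fun_prop))
      (u := fun t => U (k, t.1.1, t.1.2) t.2.1 t.2.2)
      (hU2.comp (g := fun t : (NN N × NN N) × NN N × NN N => (((k, t.1.1, t.1.2), t.2.1), t.2.2))
        (by fun_prop)) hΔ1 (fun t => (hU' (k, t.1, t.2)).2.1)
      (fun t i => ((hU' (k, t.1, t.2)).1 i).1.1)
      (fun t => hΔ3 _ _ _ _ _) (fun t i => ((hU' (k, t.1, t.2)).1 i).2)
      (fun t => mono k t.1 t.2) (un k) k (few k) ha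
  have hW2 := DefF.ofIntl2 (N := N) W
  obtain ⟨ε, e1, e2⟩ := q.pos
  obtain ⟨k₀, hk₀⟩ := S.h_lim (ε / 6) (by positivity)
  have hV : DefF N fun n : NN N => {ω | ∃ k, k₀ ≤ k ∧ k < n ∧ ω ∈ W k n} :=
    DefF.setOfT (DefF.exT (DefF.and (by fun_prop) (DefF.and (by fun_prop)
      (DefF.mem (by fun_prop) (hW2.comp2 (by fun_prop) (by fun_prop))))))
  have hV1 : ∀ n, S.μ {ω | ∃ k, k₀ ≤ k ∧ k < n ∧ ω ∈ W k n} ≤ 3 * S.h k₀ := fun n =>
    S.μ_union_le (A := fun k => W k n) (hW2.comp2 (by fun_prop) (by fun_prop)) k₀ n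
      (fun k _ => (hW' k).2.1 n) (by norm_num)
  obtain ⟨q1, Γ, i2, q2, q3⟩ := q.cl
  have i3 : Intl N fun n => q.s n \ {ω | ∃ k, k₀ ≤ k ∧ k < n ∧ ω ∈ W k n} :=
    DefF.toIntl (by fun_prop)
  refine ⟨PP.mk _ i3 ⟨fun m n hmn ω hω => ⟨q1 m n hmn hω.1, fun ⟨k, a1, a2, a3⟩ =>
    hω.2 ⟨k, a1, a2.trans_le hmn, (hW' k).1 m n hmn a3⟩⟩, Γ ∪ (Δ ∪ {a}), inferInstance,
    q2.union (hΔ1.union (ctb_single a)), fun n b hb l L y ω => ?_⟩
    ⟨ε / 2, half_pos e1, fun n => ?_⟩, Le.of_sub fun _ => Set.sdiff_subset, k₀,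
    fun k hk M x r hr ⟨m, hm⟩ hp => ?_⟩
  · simp only [Set.mem_sdiff, Set.mem_ofPred_eq, q3 n b (fun h => hb (Or.inl h)) l L y ω,
      fun k => (hW' k).2.2.1 n b (fun h => hb (Or.inr h)) l L y ω]
  · have i4 := hV.intl n
    have h1 : S.μ (q.s n) ≤ S.μ (q.s n \ {ω | ∃ k, k₀ ≤ k ∧ k < n ∧ ω ∈ W k n}) +
        S.μ {ω | ∃ k, k₀ ≤ k ∧ k < n ∧ ω ∈ W k n} := by
      refine S.μ_le_add fun ω hω => ?_
      by_cases h : ω ∈ {ω | ∃ k, k₀ ≤ k ∧ k < n ∧ ω ∈ W k n}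
      exacts [Or.inr h, Or.inl ⟨hω, h⟩]
    have h2 := hV1 n
    have h3 := e2 n
    beta_reduce
    linarith
  · obtain ⟨i, δ, d1, d2⟩ := (hU' (k, M, x)).2.2 r hp
    obtain ⟨n, j, hn⟩ := (hW' k).2.2.2 M i
    obtain ⟨l, hl⟩ := hr (max n (k + 1))
    obtain ⟨ω, o1, o2⟩ := S.nonempty_of_pos (d1.trans_le (d2 (max j (max l m))))
    have o3 := r.cl.1 _ _ (le_max_right _ _) o1
    have o4 : S.cd ω a k M = x := hm (r.cl.1 _ _ (le_max_right _ _) o3)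
    have o5 := ((hU' (k, M, x)).1 i).1.1 _ _ (le_max_left _ _) o2
    exact (hl (r.cl.1 _ _ (le_max_left _ _) o3)).2 ⟨k, hk,
      (NN.lt_add_one k).trans_le (le_max_right _ _),
      (hW' k).1 _ _ (le_max_left _ _) (hn ω (o4 ▸ o5))⟩

end MS

end Vale.Agent.P129B
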