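import Vale.Agent.P129BQ.Pos

/-!
# Random forcing inside a model: Boolean values
-/

set_option linter.unusedSectionVars false

namespace Vale.Agent.P129B

universe v

variable {N : Type v} [ZM N] {K Ω R : Type*} [Coded N K] [Tot N K] [Coded N Ω] [Tot N Ω]
  [Field R] [LinearOrder R] [IsStrictOrderedRing R] [Coded N R] [RF N R] {w : NN N → NN N}
  {α : Type*} [Coded N α]

namespace MS

variable {S : MS N K Ω R w}

/-- `ψ` is dense below `u`. -/
def Cov (ψ : S.PP → Prop) (u : NN N → Set Ω) : Prop := ∀ q : S.PP, Le q.s u → ∃ r, r ≤ q ∧ ψ r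

@[fun_prop] theorem defF_cov {ψ : α → S.PP → Prop} {u : α → NN N → Set Ω}
    (hψ : DefF N (fun p : α × S.PP => ψ p.1 p.2))
    (hu : DefF N (fun p : α × NN N => u p.1 p.2)) : DefF N (fun a => Cov (ψ a) (u a)) := by
  unfold Cov
  refine DefF.allT (DefF.imp (defF_le (by fun_prop) (hu.comp2 ?_ ?_))
    (DefF.exT (DefF.and (by fun_prop) (hψ.comp2 ?_ ?_)))) <;> fun_prop

theorem defF_cov1 {ψ : S.PP → Prop} {u : α → NN N → Set Ω} (hψ : DefF N ψ)
    (hu : DefF N (fun p : α × NN N => u p.1 p.2)) : DefF N (fun a => Cov ψ (u a)) :=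
  defF_cov (ψ := fun _ => ψ) (hψ.comp (by fun_prop)) hu

theorem Cov.union {ψ : S.PP → Prop} {u v : NN N → Set Ω} [Intl N u] [Intl N v] (hu : S.Cl u)
    (hv : S.Cl v) (h : Cov ψ u) (k : Cov ψ v) : Cov ψ fun n => u n ∪ v n := by
  intro q hq
  rcases q.pos_or hu hv hq with h1 | h1
  · obtain ⟨r, h2, h3⟩ := q.exists_meet hu h1
    obtain ⟨t, h4, h5⟩ := h r h3
    exact ⟨t, h4.trans h2, h5⟩
  · obtain ⟨r, h2, h3⟩ := q.exists_meet hv h1
    obtain ⟨t, h4, h5⟩ := k r h3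
    exact ⟨t, h4.trans h2, h5⟩

theorem cov_empty (ψ : S.PP → Prop) : Cov ψ fun _ => ∅ := fun q hq => by
  obtain ⟨m, hm⟩ := hq 0
  obtain ⟨ω, hω⟩ := q.nonempty m
  exact (hm hω).elim

theorem cl_empty [Nonempty K] : S.Cl fun _ => ∅ :=
  cl_const (Δ := ∅) ctb_empty fun _ _ _ _ _ _ => Iff.rfl

/-- `u` is an increasing family which exhausts the Boolean value of `ψ`. -/
def BV (ψ : S.PP → Prop) (u : NN N → NN N → Set Ω) : Prop :=
  (∀ i, S.Cl (u i) ∧ Cov ψ (u i)) ∧ (∀ i j n, i ≤ j → u i n ⊆ u j n) ∧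
    ∀ p, ψ p → ∃ i, S.Pos fun n => p.s n ∩ u i n

theorem defF_bv {ψ : α → S.PP → Prop} (hψ : DefF N (fun p : α × S.PP => ψ p.1 p.2)) :
    DefF N (fun t : α × (NN N → NN N → Set Ω) => BV (ψ t.1) t.2) := by
  unfold BV
  refine DefF.and (DefF.allT (DefF.and (by fun_prop) (defF_cov (hψ.comp2 ?_ ?_) ?_)))
    (DefF.and (by fun_prop) (DefF.allT (DefF.imp (hψ.comp2 ?_ ?_) ?_))) <;> fun_prop

theorem exists_bv [Nonempty K] {ψ : S.PP → Prop} (hψ : DefF N ψ)
    (mono : ∀ p q, q ≤ p → ψ p → ψ q) : ∃ u, Intl N u ∧ BV ψ u := by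
  have hT : Intl N {c : R | ∃ v : NN N → Set Ω, Intl N v ∧ (S.Cl v ∧ Cov ψ v) ∧
      ∀ n, c ≤ S.μ (v n)} :=
    intl_setOfT (DefF.ex (DefF.and (DefF.and (by fun_prop)
      (defF_cov1 hψ (by fun_prop))) (by fun_prop)))
  obtain ⟨s, hs⟩ := S.lub _ hT
    ⟨0, fun _ => ∅, inferInstance, ⟨cl_empty, cov_empty ψ⟩, fun _ => S.empty.ge⟩
    ⟨1, fun c ⟨v, _, _, h⟩ => (h 0).trans (S.μ_le_one _)⟩
  obtain ⟨v, hv, hv'⟩ := exists_intl_choice (N := N)
    (R := fun (i : NN N) (v : NN N → Set Ω) => (S.Cl v ∧ Cov ψ v) ∧ ∀ n, s - S.h i ≤ S.μ (v n))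
    (DefF.and (DefF.and (by fun_prop) (defF_cov1 hψ (by fun_prop))) (by fun_prop)) fun i => by
      obtain ⟨c, ⟨v, h1, h2, h3⟩, h4, -⟩ := hs.exists_between (sub_lt_self s (S.h_pos i))
      exact ⟨v, h1, h2, fun n => h4.le.trans (h3 n)⟩
  have hv2 := DefF.ofIntl2 (N := N) v
  have hv3 : ∀ {α : Type _} [Coded N α] {f g : α → NN N}, DefF N f → DefF N g →
      DefF N (fun a => v (f a) (g a)) := fun hf hg => hv2.comp2 hf hg
  have hu : DefF N (fun t : NN N × NN N => {ω | ∃ l, l < t.1 ∧ ω ∈ v l t.2}) :=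
    DefF.setOfT (DefF.exT (DefF.and (by fun_prop)
      (DefF.mem (by fun_prop) (hv3 (by fun_prop) (by fun_prop)))))
  have hu' : DefF N (fun i n : NN N => {ω | ∃ l, l < i ∧ ω ∈ v l n}) := DefF.lam _ hu
  refine ⟨fun i n => {ω | ∃ l, l < i ∧ ω ∈ v l n}, hu'.toIntl, fun i => ?_,
    fun i j n hij ω ⟨l, h1, h2⟩ => ⟨l, h1.trans_le hij, h2⟩, fun p hp => ?_⟩
  · refine NN.ind (P := fun i => S.Cl (fun n => {ω | ∃ l, l < i ∧ ω ∈ v l n}) ∧
      Cov ψ fun n => {ω | ∃ l, l < i ∧ ω ∈ v l n})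
      (DefF.and (S.defF_cl hu) (defF_cov1 hψ hu)) ?_ (fun i ih => ?_) i
    · have e : (fun n => {ω | ∃ l, l < (0 : NN N) ∧ ω ∈ v l n}) = fun _ => ∅ := funext fun n =>
        Set.eq_empty_of_forall_notMem fun ω ⟨l, h1, _⟩ => NN.not_lt_zero' l h1
      rw [e]
      exact ⟨cl_empty, cov_empty ψ⟩
    · have e : (fun n => {ω | ∃ l, l < i + 1 ∧ ω ∈ v l n}) =
          fun n => {ω | ∃ l, l < i ∧ ω ∈ v l n} ∪ v i n := funext fun n => Set.ext fun ω => by
        constructor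
        · rintro ⟨l, h1, h2⟩
          rcases NN.lt_add_one_cases h1 with h3 | rfl
          exacts [Or.inl ⟨l, h3, h2⟩, Or.inr h2]
        · rintro (⟨l, h1, h2⟩ | h)
          exacts [⟨l, h1.trans (NN.lt_add_one i), h2⟩, ⟨i, NN.lt_add_one i, h⟩]
      rw [e]
      have := hu'.intl i
      exact ⟨ih.1.union (hv' i).1.1, Cov.union ih.1 (hv' i).1.1 ih.2 (hv' i).1.2⟩
  · obtain ⟨ε, h1, h2⟩ := p.pos
    obtain ⟨i, hi⟩ := S.h_lim (ε / 2) (half_pos h1)
    have h3 : S.Pos fun n => p.s n ∩ v i n := by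
      by_contra hc
      have : Intl N fun n => p.s n ∩ v i n := DefF.toIntl (by fun_prop)
      have : Intl N fun n => p.s n ∪ v i n := DefF.toIntl (by fun_prop)
      obtain ⟨j, hj⟩ := (p.cl.inter (hv' i).1.1).small hc (half_pos h1)
      have h4 : s + (ε / 2 - S.h i) ≤ s := by
        refine hs.1 ⟨fun n => p.s n ∪ v i n, inferInstance, ⟨p.cl.union (hv' i).1.1,
          Cov.union p.cl (hv' i).1.1 (fun q hq => ⟨q, le_rfl, mono p q hq hp⟩) (hv' i).1.2⟩,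
          fun n => ?_⟩
        have h5 := S.union (p.s (max n j)) (v i (max n j)) inferInstance inferInstance
        have h6 := hj _ (le_max_right n j)
        have h7 := h2 (max n j)
        have h8 := (hv' i).2 (max n j)
        have h9 := S.μ_mono ((p.cl.union (hv' i).1.1).1 n _ (le_max_left n j))
        beta_reduce at h6 h9
        linarith
      linarith
    obtain ⟨δ, h4, h5⟩ := h3
    refine ⟨i + 1, δ, h4, fun n => (h5 n).trans ?_⟩
    have := hu.intl (i + 1, n)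
    exact S.μ_mono (Set.inter_subset_inter_right _ fun ω hω => ⟨i, NN.lt_add_one i, hω⟩)

/-- A common countable support. -/
theorem exists_supp {ι : Type*} [Coded N ι] [Tot N ι] {s : NN N → ι} [Intl N s]
    (hs : Function.Surjective s) {u : ι → NN N → Set Ω}
    (hu : DefF N (fun p : ι × NN N => u p.1 p.2)) (h : ∀ i, S.Cl (u i)) :
    ∃ Δ : Set K, Intl N Δ ∧ Ctb N Δ ∧ ∀ i n, S.Inv Δ (u i n) := by
  obtain ⟨D, hD, hD'⟩ := exists_intl_choice (N := N)
    (R := fun (i : NN N) (Δ : Set K) => Ctb N Δ ∧ ∀ n, S.Inv Δ (u (s i) n))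
    (DefF.and (by fun_prop) (DefF.allT (S.defF_inv (by fun_prop)
      (hu.comp2 (by fun_prop) (by fun_prop))))) fun i => (h (s i)).2
  refine ⟨⋃ i, D i, intl_iUnion (by fun_prop), ctb_iUnion (by fun_prop) fun i => (hD' i).1,
    fun i n => ?_⟩
  obtain ⟨l, rfl⟩ := hs i
  exact ((hD' l).2 n).mono (Set.subset_iUnion D l)

omit S in
theorem exists_surj_prod {ι : Type*} [Coded N ι] [Tot N ι]
    (h : ∃ s : NN N → ι, Intl N s ∧ Function.Surjective s) :
    ∃ s : NN N → ι × NN N, Intl N s ∧ Function.Surjective s := by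
  obtain ⟨s, _, hs⟩ := h
  obtain ⟨t, _, ht⟩ := exists_unpair (N := N)
  refine ⟨fun n => (s (t n).1, (t n).2), DefF.toIntl (by fun_prop), fun p => ?_⟩
  obtain ⟨i, hi⟩ := hs p.1
  obtain ⟨n, hn⟩ := ht (i, p.2)
  exact ⟨n, by simp only [hn, hi]⟩

variable (S) in
/-- double sequences which are uniformly small for large first index -/
def Th (A : NN N → NN N → Set Ω) : Prop := ∀ η, 0 < η → ∃ j₀, ∀ i, j₀ ≤ i → ∀ j, S.μ (A i j) ≤ η

theorem Cl.th {u : NN N → Set Ω} [Intl N u] (hu : S.Cl u) : S.Th fun i j => u i \ u j := by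
  intro η hη
  obtain ⟨s, hs⟩ := S.lub {c | ∀ n, c ≤ S.μ (u n)} (intl_setOfT (by fun_prop))
    ⟨0, fun n => S.nonneg _ inferInstance⟩ ⟨1, fun c h => (h 0).trans (S.μ_le_one _)⟩
  have h1 : ∃ j₀, S.μ (u j₀) < s + η := by
    by_contra hc
    have : s + η ≤ s := hs.1 fun n => not_lt.1 fun h => hc ⟨n, h⟩
    linarith
  obtain ⟨j₀, h1⟩ := h1
  refine ⟨j₀, fun i hi j => ?_⟩
  have h2 := S.μ_split (u i) (u j)
  have h3 := S.μ_mono (hu.1 _ _ hi)
  have h4 : s ≤ S.μ (u (max i j)) := hs.2 fun c h => h _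
  have h5 := S.μ_mono (Set.subset_inter (hu.1 _ _ (le_max_left i j)) (hu.1 _ _ (le_max_right i j)))
  linarith

theorem th_union {A : NN N → NN N → NN N → Set Ω}
    (hA : DefF N (fun p : NN N × NN N × NN N => A p.1 p.2.1 p.2.2)) (h : ∀ t, S.Th (A t))
    (n : NN N) : S.Th fun i j => {ω | ∃ t, t < n ∧ ω ∈ A t i j} := by
  have hA' : ∀ {α : Type _} [Coded N α] {f g k : α → NN N}, DefF N f → DefF N g → DefF N k →
      DefF N (fun a => A (f a) (g a) (k a)) := fun {α} _ f g k hf hg hk =>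
    hA.comp (g := fun a => (f a, g a, k a)) (by fun_prop)
  have hB : DefF N (fun p : NN N × NN N × NN N => {ω | ∃ t, t < p.1 ∧ ω ∈ A t p.2.1 p.2.2}) :=
    DefF.setOfT (DefF.exT (DefF.and (by fun_prop)
      (DefF.mem (by fun_prop) (hA' (by fun_prop) (by fun_prop) (by fun_prop)))))
  refine NN.ind (P := fun n => S.Th fun i j => {ω | ∃ t, t < n ∧ ω ∈ A t i j}) ?_
    (fun η hη => ⟨0, fun i _ j => ?_⟩) (fun n ih η hη => ?_) n
  · unfold Th
    refine DefF.allT (DefF.imp (by fun_prop) (DefF.exT (DefF.allT (DefF.imp (by fun_prop)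
      (DefF.allT (DefF.le (S.defF_μ ?_) (by fun_prop)))))))
    exact hB.comp (g := fun p : (((NN N × R) × NN N) × NN N) × NN N => (p.1.1.1.1, p.1.2, p.2))
      (by fun_prop)
  · beta_reduce
    rw [Set.eq_empty_of_forall_notMem (s := {ω | ∃ t, t < (0 : NN N) ∧ ω ∈ A t i j})
      fun ω ⟨l, h1, _⟩ => NN.not_lt_zero' l h1, S.empty]
    exact hη.le
  · obtain ⟨j₁, h1⟩ := ih _ (half_pos hη)
    obtain ⟨j₂, h2⟩ := h n _ (half_pos hη)
    refine ⟨max j₁ j₂, fun i hi j => ?_⟩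
    have := hB.intl (n, i, j)
    have := hB.intl (n + 1, i, j)
    have := hA.intl (n, i, j)
    have h3 : S.μ {ω | ∃ t, t < n + 1 ∧ ω ∈ A t i j} ≤
        S.μ {ω | ∃ t, t < n ∧ ω ∈ A t i j} + S.μ (A n i j) := by
      refine S.μ_le_add fun ω ⟨t, h4, h5⟩ => ?_
      rcases NN.lt_add_one_cases h4 with h6 | rfl
      exacts [Or.inl ⟨t, h6, h5⟩, Or.inr h5]
    have h4 := h1 i ((le_max_left _ _).trans hi) j
    have h5 := h2 i ((le_max_right _ _).trans hi) j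
    beta_reduce at h4 ⊢
    linarith

end MS

end Vale.Agent.P129B
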