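import Vale.Agent.P129BQ.Ctb
import Vale.Agent.P129BZ.Cls

/-!
# Random forcing inside a model: the conditions
-/

set_option linter.unusedSectionVars false

namespace Vale.Agent.P129B

universe v

variable {N : Type v} [ZM N] {K Ω R : Type*} [Coded N K] [Tot N K] [Coded N Ω] [Tot N Ω]
  [Field R] [LinearOrder R] [IsStrictOrderedRing R] [Coded N R] [RF N R] {w : NN N → NN N}
  {α : Type*} [Coded N α]

namespace MS

variable (S : MS N K Ω R w)

@[fun_prop] theorem defF_μ {A : α → Set Ω} (hA : DefF N A) : DefF N (fun a => S.μ (A a)) :=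
  S.dμ.comp hA

@[fun_prop] theorem defF_h {k : α → NN N} (hk : DefF N k) : DefF N (fun a => S.h (k a)) :=
  S.dh.comp hk

@[fun_prop] theorem defF_cd {o : α → Ω} {a : α → K} {k M : α → NN N} (ho : DefF N o)
    (ha : DefF N a) (hk : DefF N k) (hM : DefF N M) :
    DefF N (fun t => S.cd (o t) (a t) (k t) (M t)) :=
  S.dcd.comp (g := fun t => (o t, a t, k t, M t)) (by fun_prop)

@[fun_prop] theorem defF_upd {o : α → Ω} {a : α → K} {k M x : α → NN N} (ho : DefF N o)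
    (ha : DefF N a) (hk : DefF N k) (hM : DefF N M) (hx : DefF N x) :
    DefF N (fun t => S.upd (o t) (a t) (k t) (M t) (x t)) :=
  S.dupd.comp (g := fun t => (o t, a t, k t, M t, x t)) (by fun_prop)

theorem μ_split (A B : Set Ω) [Intl N A] [Intl N B] : S.μ (A \ B) + S.μ (A ∩ B) = S.μ A := by
  have h := S.union (A \ B) (A ∩ B) inferInstance inferInstance
  have e : A \ B ∩ (A ∩ B) = ∅ := Set.eq_empty_of_forall_notMem fun x hx => hx.1.2 hx.2.2
  rw [Set.sdiff_union_inter, e, S.empty, add_zero] at h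
  exact h.symm

theorem μ_mono {A B : Set Ω} [Intl N A] [Intl N B] (h : A ⊆ B) : S.μ A ≤ S.μ B := by
  have h1 := S.μ_split B A
  rw [Set.inter_eq_self_of_subset_right h] at h1
  have h2 := S.nonneg (B \ A) inferInstance
  linarith

theorem μ_le_one (A : Set Ω) [Intl N A] : S.μ A ≤ 1 := S.univ ▸ S.μ_mono (Set.subset_univ A)

theorem μ_le_add {A B C : Set Ω} [Intl N A] [Intl N B] [Intl N C] (h : A ⊆ B ∪ C) :
    S.μ A ≤ S.μ B + S.μ C := by
  have h1 := S.union B C inferInstance inferInstance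
  have h2 := S.nonneg (B ∩ C) inferInstance
  have h3 := S.μ_mono h
  linarith

theorem μ_disj {A B C : Set Ω} [Intl N A] [Intl N B] [Intl N C] (h : A ∪ B ⊆ C)
    (hd : ∀ x ∈ A, x ∉ B) : S.μ A + S.μ B ≤ S.μ C := by
  have h1 := S.union A B inferInstance inferInstance
  have e : A ∩ B = ∅ := Set.eq_empty_of_forall_notMem fun x hx => hd x hx.1 hx.2
  rw [e, S.empty, add_zero] at h1
  exact h1 ▸ S.μ_mono h

theorem nonempty_of_pos {A : Set Ω} (h : 0 < S.μ A) : A.Nonempty :=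
  Set.nonempty_iff_ne_empty.2 fun e => by rw [e, S.empty] at h; exact lt_irrefl _ h

theorem h_anti {k l : NN N} (h : k ≤ l) : S.h l ≤ S.h k :=
  NN.le_ind (P := fun l => S.h l ≤ S.h k) (by fun_prop) le_rfl
    (fun n _ ih => (S.h_lt n).le.trans ih) h

/-- A finite union of small sets is small. -/
theorem μ_union_le {A : NN N → Set Ω} (hA : DefF N A) {c : R} (k n : NN N)
    (h : ∀ i, k ≤ i → S.μ (A i) ≤ c * (S.h i - S.h (i + 1))) (hc : 0 ≤ c) :
    S.μ {ω | ∃ i, k ≤ i ∧ i < n ∧ ω ∈ A i} ≤ c * S.h k := by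
  have hA' : ∀ n : NN N, Intl N {ω | ∃ i, k ≤ i ∧ i < n ∧ ω ∈ A i} :=
    fun n => intl_setOfT (by fun_prop)
  have h0 : ∀ n, n ≤ k → S.μ {ω | ∃ i, k ≤ i ∧ i < n ∧ ω ∈ A i} = 0 := fun n hn => by
    rw [Set.eq_empty_of_forall_notMem (s := {ω | ∃ i, k ≤ i ∧ i < n ∧ ω ∈ A i})
      fun ω ⟨i, h1, h2, _⟩ => absurd (h2.trans_le hn) (not_lt.2 h1), S.empty]
  rcases le_total n k with hn | hn
  · rw [h0 n hn]
    exact mul_nonneg hc (S.h_pos k).le
  · have h1 : S.μ {ω | ∃ i, k ≤ i ∧ i < n ∧ ω ∈ A i} + c * S.h n ≤ c * S.h k := by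
      refine NN.le_ind
        (P := fun n => S.μ {ω | ∃ i, k ≤ i ∧ i < n ∧ ω ∈ A i} + c * S.h n ≤ c * S.h k)
        (by fun_prop) (by rw [h0 k le_rfl, zero_add]) (fun n hn ih => ?_) hn
      have := hA' n
      have := hA' (n + 1)
      have := hA.intl n
      have h2 : S.μ {ω | ∃ i, k ≤ i ∧ i < n + 1 ∧ ω ∈ A i} ≤
          S.μ {ω | ∃ i, k ≤ i ∧ i < n ∧ ω ∈ A i} + S.μ (A n) := by
        refine S.μ_le_add fun ω ⟨i, h1, h2, h3⟩ => ?_
        rcases NN.lt_add_one_cases h2 with h4 | rfl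
        exacts [Or.inl ⟨i, h1, h4, h3⟩, Or.inr h3]
      have h3 := h n hn
      linarith
    have := mul_nonneg hc (S.h_pos n).le
    linarith

/-- `A` does not depend on the coordinates outside `Δ`. -/
def Inv (Δ : Set K) (A : Set Ω) : Prop := ∀ a, a ∉ Δ → ∀ k M x ω, S.upd ω a k M x ∈ A ↔ ω ∈ A

/-- decreasing sequences of sets with a countable support -/
def Cl (u : NN N → Set Ω) : Prop :=
  (∀ m n, m ≤ n → u n ⊆ u m) ∧ ∃ Δ : Set K, Intl N Δ ∧ Ctb N Δ ∧ ∀ n, S.Inv Δ (u n)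

/-- sequences with measures bounded away from zero -/
def Pos (u : NN N → Set Ω) : Prop := ∃ ε, 0 < ε ∧ ∀ n, ε ≤ S.μ (u n)

/-- formal inclusion of intersections -/
def Le (u v : NN N → Set Ω) : Prop := ∀ n, ∃ m, u m ⊆ v n

@[fun_prop] theorem defF_inv {D : α → Set K} {A : α → Set Ω} (hD : DefF N D) (hA : DefF N A) :
    DefF N (fun a => S.Inv (D a) (A a)) := by
  unfold Inv
  fun_prop

@[fun_prop] theorem defF_cl {u : α → NN N → Set Ω}
    (hu : DefF N (fun p : α × NN N => u p.1 p.2)) : DefF N (fun a => S.Cl (u a)) := by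
  have h1 : DefF N u := DefF.lam u hu
  have : DefF N (fun u : NN N → Set Ω => S.Cl u) := by
    unfold Cl
    fun_prop
  exact this.comp h1

@[fun_prop] theorem defF_pos {u : α → NN N → Set Ω}
    (hu : DefF N (fun p : α × NN N => u p.1 p.2)) : DefF N (fun a => S.Pos (u a)) := by
  have h1 : DefF N u := DefF.lam u hu
  have : DefF N (fun u : NN N → Set Ω => S.Pos u) := by
    unfold Pos
    exact DefF.exT (by fun_prop)
  exact this.comp h1

@[fun_prop] theorem defF_le {u v : α → NN N → Set Ω}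
    (hu : DefF N (fun p : α × NN N => u p.1 p.2)) (hv : DefF N (fun p : α × NN N => v p.1 p.2)) :
    DefF N (fun a => Le (u a) (v a)) := by
  have h1 : DefF N u := DefF.lam u hu
  have h2 : DefF N v := DefF.lam v hv
  have : DefF N (fun p : (NN N → Set Ω) × (NN N → Set Ω) => Le p.1 p.2) := by
    unfold Le
    fun_prop
  exact this.comp2 h1 h2

variable {S}

theorem Inv.mono {Δ Γ : Set K} {A : Set Ω} (h : S.Inv Δ A) (H : Δ ⊆ Γ) : S.Inv Γ A :=
  fun a ha => h a fun k => ha (H k)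

theorem Le.trans {u v t : NN N → Set Ω} (h : Le u v) (k : Le v t) : Le u t := fun n => by
  obtain ⟨m, hm⟩ := k n
  obtain ⟨l, hl⟩ := h m
  exact ⟨l, hl.trans hm⟩

theorem Le.of_sub {u v : NN N → Set Ω} (h : ∀ n, u n ⊆ v n) : Le u v := fun n => ⟨n, h n⟩

theorem Cl.two {u v t : NN N → Set Ω} (hu : S.Cl u) (hv : S.Cl v)
    (h1 : ∀ m n, m ≤ n → t n ⊆ t m)
    (h2 : ∀ Δ, (∀ n, S.Inv Δ (u n)) → (∀ n, S.Inv Δ (v n)) → ∀ n, S.Inv Δ (t n)) : S.Cl t := by
  obtain ⟨-, Δ, _, k1, k2⟩ := hu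
  obtain ⟨-, Γ, _, k3, k4⟩ := hv
  exact ⟨h1, Δ ∪ Γ, inferInstance, k1.union k3, h2 _
    (fun n => (k2 n).mono Set.subset_union_left) fun n => (k4 n).mono Set.subset_union_right⟩

theorem Cl.inter {u v : NN N → Set Ω} (hu : S.Cl u) (hv : S.Cl v) : S.Cl fun n => u n ∩ v n :=
  hu.two hv (fun m n h => Set.inter_subset_inter (hu.1 m n h) (hv.1 m n h))
    fun _ h1 h2 n a ha k M x ω => and_congr (h1 n a ha k M x ω) (h2 n a ha k M x ω)

theorem Cl.union {u v : NN N → Set Ω} (hu : S.Cl u) (hv : S.Cl v) : S.Cl fun n => u n ∪ v n :=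
  hu.two hv (fun m n h => Set.union_subset_union (hu.1 m n h) (hv.1 m n h))
    fun _ h1 h2 n a ha k M x ω => or_congr (h1 n a ha k M x ω) (h2 n a ha k M x ω)

theorem Cl.diff {u v : NN N → Set Ω} (hu : S.Cl u) (hv : S.Cl v) (j : NN N) :
    S.Cl fun n => u n \ v j :=
  hu.two hv (fun m n h => Set.sdiff_subset_sdiff_left (hu.1 m n h))
    fun _ h1 h2 n a ha k M x ω => and_congr (h1 n a ha k M x ω) (not_congr (h2 j a ha k M x ω))

theorem cl_const {A : Set Ω} {Δ : Set K} [Intl N Δ] (h1 : Ctb N Δ) (h2 : S.Inv Δ A) :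
    S.Cl fun _ => A := ⟨fun _ _ _ => le_rfl, Δ, inferInstance, h1, fun _ => h2⟩

/-- A sequence that is not positive has small terms. -/
theorem Cl.small {u : NN N → Set Ω} [Intl N u] (hu : S.Cl u) (h : ¬ S.Pos u) {ε : R}
    (hε : 0 < ε) : ∃ j, ∀ n, j ≤ n → S.μ (u n) < ε := by
  by_contra hc
  refine h ⟨ε, hε, fun n => ?_⟩
  by_contra h1
  exact hc ⟨n, fun m hm => (S.μ_mono (hu.1 n m hm)).trans_lt (not_le.1 h1)⟩

variable (S)

instance : Fact (DefF N (fun u : NN N → Set Ω => S.Cl u ∧ S.Pos u)) := ⟨by fun_prop⟩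

/-- the conditions -/
def PP : Type _ := St N (fun u : NN N → Set Ω => S.Cl u ∧ S.Pos u)

noncomputable instance : Coded N S.PP := codedSt
instance : Tot N S.PP := inferInstanceAs (Tot N (St N _))

variable {S}

/-- the sequence of a condition -/
def PP.s (p : S.PP) : NN N → Set Ω := p.1

instance PP.intl (p : S.PP) : Intl N p.s := p.2.1
theorem PP.cl (p : S.PP) : S.Cl p.s := p.2.2.1
theorem PP.pos (p : S.PP) : S.Pos p.s := p.2.2.2

/-- a condition from a sequence -/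
def PP.mk (u : NN N → Set Ω) (h0 : Intl N u) (h1 : S.Cl u) (h2 : S.Pos u) : S.PP := ⟨u, h0, h1, h2⟩

@[fun_prop] theorem defF_s {p : α → S.PP} {n : α → NN N} (hp : DefF N p) (hn : DefF N n) :
    DefF N (fun a => (p a).s (n a)) := (DefF.stVal hp).ap hn

instance : Preorder S.PP where
  le p q := Le p.s q.s
  le_refl _ := Le.of_sub fun _ => le_rfl
  le_trans _ _ _ := Le.trans

theorem PP.le_def {p q : S.PP} : p ≤ q ↔ Le p.s q.s := Iff.rfl

instance : DefLE N S.PP := ⟨by simp only [PP.le_def]; fun_prop⟩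

instance [Nonempty K] : OrderTop S.PP where
  top := PP.mk (fun _ => Set.univ) inferInstance
    (cl_const (Δ := ∅) ctb_empty fun _ _ _ _ _ _ => Iff.rfl) ⟨1, one_pos, fun _ => S.univ.ge⟩
  le_top _ := Le.of_sub fun _ => Set.subset_univ _

theorem PP.nonempty (p : S.PP) (n : NN N) : (p.s n).Nonempty := by
  obtain ⟨ε, h1, h2⟩ := p.pos
  exact S.nonempty_of_pos (h1.trans_le (h2 n))

/-- the meet of a condition with a compatible sequence -/
theorem PP.exists_meet (p : S.PP) {u : NN N → Set Ω} [Intl N u] (hu : S.Cl u)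
    (h : S.Pos fun n => p.s n ∩ u n) : ∃ r : S.PP, r ≤ p ∧ Le r.s u :=
  ⟨PP.mk (fun n => p.s n ∩ u n) (DefF.toIntl (by fun_prop)) (p.cl.inter hu) h,
    Le.of_sub fun _ => Set.inter_subset_left, Le.of_sub fun _ => Set.inter_subset_right⟩

/-- Deciding a sequence. -/
theorem PP.decide (p : S.PP) {u : NN N → Set Ω} [Intl N u] (hu : S.Cl u) :
    ∃ r : S.PP, r ≤ p ∧ (Le r.s u ∨ ∃ j, ∀ ω ∈ r.s j, ω ∉ u j) := by
  by_cases h : S.Pos fun n => p.s n ∩ u n
  · obtain ⟨r, h1, h2⟩ := p.exists_meet hu h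
    exact ⟨r, h1, Or.inl h2⟩
  · obtain ⟨ε, h1, h2⟩ := p.pos
    have : Intl N fun n => p.s n ∩ u n := DefF.toIntl (by fun_prop)
    obtain ⟨j, hj⟩ := (p.cl.inter hu).small h (half_pos h1)
    refine ⟨PP.mk (fun n => p.s n \ u j) (DefF.toIntl (by fun_prop)) (p.cl.diff hu j)
      ⟨ε / 2, half_pos h1, fun n => ?_⟩, Le.of_sub fun _ => Set.sdiff_subset,
      Or.inr ⟨j, fun _ hω => hω.2⟩⟩
    have h3 : S.μ (p.s (max n j)) ≤ S.μ (p.s n \ u j) + S.μ (p.s j ∩ u j) := by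
      refine S.μ_le_add fun ω hω => ?_
      by_cases h4 : ω ∈ u j
      exacts [Or.inr ⟨p.cl.1 _ _ (le_max_right _ _) hω, h4⟩,
        Or.inl ⟨p.cl.1 _ _ (le_max_left _ _) hω, h4⟩]
    have h4 := hj j le_rfl
    have h5 := h2 (max n j)
    linarith

/-- A condition below a union is compatible with one of the two parts. -/
theorem PP.pos_or (p : S.PP) {u v : NN N → Set Ω} [Intl N u] [Intl N v] (hu : S.Cl u)
    (hv : S.Cl v) (h : Le p.s fun n => u n ∪ v n) :
    (S.Pos fun n => p.s n ∩ u n) ∨ S.Pos fun n => p.s n ∩ v n := by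
  by_contra hc
  obtain ⟨ε, h1, h2⟩ := p.pos
  have : Intl N fun n => p.s n ∩ u n := DefF.toIntl (by fun_prop)
  have : Intl N fun n => p.s n ∩ v n := DefF.toIntl (by fun_prop)
  obtain ⟨i, hi⟩ := (p.cl.inter hu).small (fun k => hc (Or.inl k)) (half_pos h1)
  obtain ⟨j, hj⟩ := (p.cl.inter hv).small (fun k => hc (Or.inr k)) (half_pos h1)
  obtain ⟨m, hm⟩ := h (max i j)
  have h3 : S.μ (p.s (max m (max i j))) ≤
      S.μ (p.s (max i j) ∩ u (max i j)) + S.μ (p.s (max i j) ∩ v (max i j)) := by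
    refine S.μ_le_add fun ω hω => ?_
    have h4 := p.cl.1 _ _ (le_max_right _ _) hω
    rcases hm (p.cl.1 _ _ (le_max_left _ _) hω) with h5 | h5
    exacts [Or.inl ⟨h4, h5⟩, Or.inr ⟨h4, h5⟩]
  have h4 := hi _ (le_max_left i j)
  have h5 := hj _ (le_max_right i j)
  have h6 := h2 (max m (max i j))
  linarith

end MS

end Vale.Agent.P129B
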