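import Vale.Agent.P129BQ.BVal

/-!
# Random forcing inside a model: the mass estimate
-/

set_option linter.unusedSectionVars false

namespace Vale.Agent.P129B

universe v

variable {N : Type v} [ZM N] {K Ω R : Type*} [Coded N K] [Tot N K] [Coded N Ω] [Tot N Ω]
  [Field R] [LinearOrder R] [IsStrictOrderedRing R] [Coded N R] [RF N R] {w : NN N → NN N}

namespace MS

variable {S : MS N K Ω R w}

/-- The points where the family `v` is not thin. -/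
def Bg (c₀ n : NN N) (v : NN N × NN N × NN N → Set Ω) (j : NN N) : Set Ω :=
  {ω | (∃ M L x y, M < n ∧ L < n ∧ x ≤ M ∧ y ≤ L ∧ M ≠ L ∧ ω ∈ v (M, x, j) ∧ ω ∈ v (L, y, j)) ∨
    ∃ M c, M < n ∧ Many {x | ω ∈ v (M, x, j)} M c ∧ M + 1 < c * c₀}

omit S in
theorem defF_bg (c₀ n : NN N) {v : NN N × NN N × NN N → Set Ω} (hv : DefF N v) :
    DefF N (Bg c₀ n v) := by
  unfold Bg
  fun_prop

theorem bg_small {φ : (NN N × NN N) × S.PP → Prop} (hφ : DefF N φ)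
    {v : NN N × NN N × NN N → Set Ω} (hv : DefF N v) {Δ : Set K} [Intl N Δ] (hΔ : Ctb N Δ)
    (h1 : ∀ M x i j, i ≤ j → v (M, x, j) ⊆ v (M, x, i)) (h2 : ∀ t, S.Inv Δ (v t))
    (h3 : ∀ M x, Cov (fun p => φ ((M, x), p)) fun j => v (M, x, j))
    (mono : ∀ t p q, q ≤ p → φ (t, p) → φ (t, q))
    (un : ∀ M L x y p, φ ((M, x), p) → φ ((L, y), p) → M = L) {c₀ : NN N}
    (few : ∀ M c p, Many {x | φ ((M, x), p)} M c → c * c₀ ≤ M + 1) (n : NN N) {ε : R}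
    (hε : 0 < ε) : ∃ j, S.μ (Bg c₀ n v j) < ε := by
  have hB := (defF_bg c₀ n hv).toIntl
  have hC : S.Cl (Bg c₀ n v) := by
    refine ⟨fun i j hij ω hω => ?_, Δ, inferInstance, hΔ, fun j a ha k M y ω => ?_⟩
    · rcases hω with ⟨M, L, x, y, a1, a2, a3, a4, a5, a6, a7⟩ | ⟨M, c, a1, a2, a3⟩
      · exact Or.inl ⟨M, L, x, y, a1, a2, a3, a4, a5, h1 _ _ _ _ hij a6, h1 _ _ _ _ hij a7⟩
      · exact Or.inr ⟨M, c, a1, a2.mono fun x _ hx => h1 _ _ _ _ hij hx, a3⟩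
    · simp only [Bg, Set.mem_ofPred_eq, fun t => h2 t a ha k M y ω]
  have hP : ¬ S.Pos (Bg c₀ n v) := by
    intro hp
    have hcl : ∀ M x, S.Cl fun j => v (M, x, j) :=
      fun M x => ⟨h1 M x, Δ, inferInstance, hΔ, fun j => h2 _⟩
    have dm : ∀ (M x : NN N) (p q : S.PP), q ≤ p →
        (φ ((M, x), p) ∨ ∃ j, ∀ ω ∈ p.s j, ω ∉ v (M, x, j)) →
        φ ((M, x), q) ∨ ∃ j, ∀ ω ∈ q.s j, ω ∉ v (M, x, j) := by
      rintro M x p q hq (h | ⟨j, hj⟩)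
      · exact Or.inl (mono _ _ _ hq h)
      · obtain ⟨m, hm⟩ := hq j
        exact Or.inr ⟨max m j, fun ω hω k => hj ω (hm (q.cl.1 _ _ (le_max_left _ _) hω))
          (h1 _ _ _ _ (le_max_right _ _) k)⟩
    have dd : ∀ (M x : NN N) (q : S.PP), ∃ p, p ≤ q ∧
        (φ ((M, x), p) ∨ ∃ j, ∀ ω ∈ p.s j, ω ∉ v (M, x, j)) := by
      intro M x q
      have : Intl N fun j => v (M, x, j) := DefF.toIntl (by fun_prop)
      obtain ⟨r, a1, a2 | a2⟩ := q.decide (hcl M x)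
      · obtain ⟨t, a3, a4⟩ := h3 M x r a2
        exact ⟨t, a3.trans a1, Or.inl a4⟩
      · exact ⟨r, a1, Or.inr a2⟩
    obtain ⟨r, hr, hr'⟩ := dense_fin (N := N) (D := fun M (p : S.PP) => ∀ x, x < n →
      φ ((M, x), p) ∨ ∃ j, ∀ ω ∈ p.s j, ω ∉ v (M, x, j)) (by fun_prop)
      (fun M p q h k x hx => dm _ _ _ _ h (k x hx))
      (fun M q => dense_fin (N := N) (D := fun x (p : S.PP) =>
        φ ((M, x), p) ∨ ∃ j, ∀ ω ∈ p.s j, ω ∉ v (M, x, j)) (by fun_prop) (dm M) (dd M) n q)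
      n (PP.mk _ hB hC hp)
    have qm : ∀ M x i j : NN N, i ≤ j → (φ ((M, x), r) ∨ ∀ ω ∈ r.s i, ω ∉ v (M, x, i)) →
        φ ((M, x), r) ∨ ∀ ω ∈ r.s j, ω ∉ v (M, x, j) := fun M x i j hij h =>
      h.imp id fun k ω hω a => k ω (r.cl.1 _ _ hij hω) (h1 _ _ _ _ hij a)
    obtain ⟨j, hj⟩ := exists_common (N := N) (P := fun M j => ∀ x, x < n →
      φ ((M, x), r) ∨ ∀ ω ∈ r.s j, ω ∉ v (M, x, j)) (by fun_prop)
      (fun M i j h k x hx => qm _ _ _ _ h (k x hx)) n fun M hM =>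
      exists_common (N := N) (P := fun x j => φ ((M, x), r) ∨ ∀ ω ∈ r.s j, ω ∉ v (M, x, j))
        (by fun_prop) (qm M) n fun x hx =>
        (hr' M hM x hx).elim (fun h => ⟨0, Or.inl h⟩) fun h => h.imp fun _ => Or.inr
    obtain ⟨m, hm⟩ := hr j
    obtain ⟨ω, hω⟩ := r.nonempty (max m j)
    have hz : ω ∈ Bg c₀ n v j := hm (r.cl.1 _ _ (le_max_left _ _) hω)
    have ha : ∀ M x, M < n → x ≤ M → ω ∈ v (M, x, j) → φ ((M, x), r) := fun M x a1 a2 a3 =>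
      (hj M a1 x (a2.trans_lt a1)).resolve_right fun k =>
        k ω (r.cl.1 _ _ (le_max_right _ _) hω) a3
    rcases hz with ⟨M, L, x, y, a1, a2, a3, a4, a5, a6, a7⟩ | ⟨M, c, a1, a2, a3⟩
    · exact a5 (un _ _ _ _ _ (ha M x a1 a3 a6) (ha L y a2 a4 a7))
    · exact absurd (few M c r (a2.mono fun x hx k => ha M x a1 hx k)) (not_le.2 a3)
  obtain ⟨j, hj⟩ := hC.small hP hε
  exact ⟨j, hj j le_rfl⟩

/-- Outside the big set a new coordinate hits the family with small probability. -/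
theorem mass {v : NN N × NN N × NN N → Set Ω} (hv : DefF N v) (a : K) (k n j : NN N)
    (h2 : ∀ M y ω t, S.upd ω a k M y ∈ v t ↔ ω ∈ v t) :
    S.μ {ω | ∃ M, M < n ∧ ω ∈ v (M, S.cd ω a k M, j)} ≤
      S.μ (Bg (w k) n v j) + (S.h k - S.h (k + 1)) := by
  have hZ : Intl N (Bg (w k) n v j) := (defF_bg _ n hv).intl j
  have hZ' : ∀ M y ω, S.upd ω a k M y ∈ Bg (w k) n v j ↔ ω ∈ Bg (w k) n v j := fun M y ω => by
    simp only [Bg, Set.mem_ofPred_eq, h2 M y ω]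
  have hZ1 : ∀ ω M L x y, M < n → L < n → x ≤ M → y ≤ L → M ≠ L → ω ∈ v (M, x, j) →
      ω ∈ v (L, y, j) → ω ∈ Bg (w k) n v j := fun ω M L x y a1 a2 a3 a4 a5 a6 a7 =>
    Or.inl ⟨M, L, x, y, a1, a2, a3, a4, a5, a6, a7⟩
  have hZ2 : ∀ ω M c, M < n → Many {x | ω ∈ v (M, x, j)} M c → M + 1 < c * w k →
      ω ∈ Bg (w k) n v j := fun ω M c a1 a2 a3 => Or.inr ⟨M, c, a1, a2, a3⟩
  generalize Bg (w k) n v j = Z at *
  have hd : 0 ≤ S.h k - S.h (k + 1) := sub_nonneg.2 (S.h_lt k).le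
  have hA : DefF N fun m : NN N => {ω | ∃ M, M < m ∧ ω ∈ v (M, S.cd ω a k M, j) ∧ ω ∉ Z} := by
    fun_prop
  have hB : DefF N fun m : NN N => {ω | ∃ M, M < m ∧ ∃ x, x ≤ M ∧ ω ∈ v (M, x, j) ∧ ω ∉ Z} := by
    fun_prop
  have key : ∀ m, m ≤ n → S.μ {ω | ∃ M, M < m ∧ ω ∈ v (M, S.cd ω a k M, j) ∧ ω ∉ Z} ≤
      (S.h k - S.h (k + 1)) * S.μ {ω | ∃ M, M < m ∧ ∃ x, x ≤ M ∧ ω ∈ v (M, x, j) ∧ ω ∉ Z} := by
    intro m
    refine NN.ind (P := fun m => m ≤ n →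
      S.μ {ω | ∃ M, M < m ∧ ω ∈ v (M, S.cd ω a k M, j) ∧ ω ∉ Z} ≤ (S.h k - S.h (k + 1)) *
        S.μ {ω | ∃ M, M < m ∧ ∃ x, x ≤ M ∧ ω ∈ v (M, x, j) ∧ ω ∉ Z})
      (DefF.imp (by fun_prop) (DefF.le (S.defF_μ hA) (DefF.mul (by fun_prop) (S.defF_μ hB))))
      (fun _ => ?_) (fun m ih hm => ?_) m
    · have := hB.intl 0
      rw [Set.eq_empty_of_forall_notMem
        (s := {ω | ∃ M, M < (0 : NN N) ∧ ω ∈ v (M, S.cd ω a k M, j) ∧ ω ∉ Z})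
        fun ω ⟨l, h1, _⟩ => NN.not_lt_zero' l h1, S.empty]
      exact mul_nonneg hd (S.nonneg _ this)
    · have hm' : m < n := (NN.lt_add_one m).trans_le hm
      have i1 := hA.intl m
      have i2 := hA.intl (m + 1)
      have i3 := hB.intl m
      have i4 := hB.intl (m + 1)
      have i5 : Intl N {ω | ∃ x, x ≤ m ∧ ω ∈ v (m, x, j) ∧ ω ∉ Z} := intl_setOfT (by fun_prop)
      have i6 : Intl N {ω | ω ∈ v (m, S.cd ω a k m, j) ∧ ω ∉ Z} := intl_setOfT (by fun_prop)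
      have h3 : S.μ {ω | ω ∈ v (m, S.cd ω a k m, j) ∧ ω ∉ Z} ≤
          (S.h k - S.h (k + 1)) * S.μ {ω | ∃ x, x ≤ m ∧ ω ∈ v (m, x, j) ∧ ω ∉ Z} := by
        refine S.ind a k m (fun x => {ω | ω ∈ v (m, x, j) ∧ ω ∉ Z}) _
          (DefF.toIntl (by fun_prop)) i5 (fun x y ω => ?_) (fun ω c hc => ?_)
          fun x hx ω hω => ⟨x, hx, hω⟩
        · simp only [Set.mem_ofPred_eq, h2, hZ']
        · by_contra hlt
          have h0 : (0 : NN N) < c := by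
            refine (NN.zero_le' c).lt_of_ne ?_
            rintro rfl
            exact hlt (by rw [zero_mul]; exact NN.zero_le' _)
          obtain ⟨f, -, -, hf⟩ := id hc
          exact (hf 0 h0).2.2 (hZ2 ω m c hm' (hc.mono fun x _ hx => hx.1) (not_le.1 hlt))
      have h4 : S.μ {ω | ∃ M, M < m + 1 ∧ ω ∈ v (M, S.cd ω a k M, j) ∧ ω ∉ Z} ≤
          S.μ {ω | ∃ M, M < m ∧ ω ∈ v (M, S.cd ω a k M, j) ∧ ω ∉ Z} +
          S.μ {ω | ω ∈ v (m, S.cd ω a k m, j) ∧ ω ∉ Z} := by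
        refine S.μ_le_add fun ω ⟨M, a1, a2⟩ => ?_
        rcases NN.lt_add_one_cases a1 with a3 | rfl
        exacts [Or.inl ⟨M, a3, a2⟩, Or.inr a2]
      have h5 : S.μ {ω | ∃ M, M < m ∧ ∃ x, x ≤ M ∧ ω ∈ v (M, x, j) ∧ ω ∉ Z} +
          S.μ {ω | ∃ x, x ≤ m ∧ ω ∈ v (m, x, j) ∧ ω ∉ Z} ≤
          S.μ {ω | ∃ M, M < m + 1 ∧ ∃ x, x ≤ M ∧ ω ∈ v (M, x, j) ∧ ω ∉ Z} := by
        refine S.μ_disj ?_ ?_
        · rintro ω (⟨M, a1, a2⟩ | a2)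
          exacts [⟨M, a1.trans (NN.lt_add_one m), a2⟩, ⟨m, NN.lt_add_one m, a2⟩]
        · rintro ω ⟨M, a1, x, a2, a3, a4⟩ ⟨y, b1, b2, -⟩
          exact a4 (hZ1 ω M m x y (a1.trans hm') hm' a2 b1 a1.ne a3 b2)
      have h6 := ih hm'.le
      have h7 := mul_le_mul_of_nonneg_left h5 hd
      rw [mul_add] at h7
      linarith
  have i1 := hA.intl n
  have i2 := hB.intl n
  have i3 : Intl N {ω | ∃ M, M < n ∧ ω ∈ v (M, S.cd ω a k M, j)} := intl_setOfT (by fun_prop)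
  have h3 : S.μ {ω | ∃ M, M < n ∧ ω ∈ v (M, S.cd ω a k M, j)} ≤
      S.μ Z + S.μ {ω | ∃ M, M < n ∧ ω ∈ v (M, S.cd ω a k M, j) ∧ ω ∉ Z} := by
    refine S.μ_le_add fun ω ⟨M, a1, a2⟩ => ?_
    by_cases h : ω ∈ Z
    exacts [Or.inl h, Or.inr ⟨M, a1, a2, h⟩]
  have h4 := key n le_rfl
  have h5 := mul_le_mul_of_nonneg_left
    (S.μ_le_one {ω | ∃ M, M < n ∧ ∃ x, x ≤ M ∧ ω ∈ v (M, x, j) ∧ ω ∉ Z}) hd
  linarith

end MS

end Vale.Agent.P129B
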